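import Vale.Agent.P275MC.CoS

/-!
# P275, the literal weight filtration: abstract part
-/

open CategoryTheory CategoryTheory.Pretriangulated TopologicalSpace Opposite Limits P275S Module
open Vale.Agent.P275MC

noncomputable section

namespace Vale.Agent.P275WL

variable {k : Type} [Field k] {X : TopCat.{0}}

/-- `u` factors through the canonical truncation in the degrees `≤ a` -/
def TW (a : ℤ) {L A : Der k X} (u : L ⟶ A) : Prop :=
  ∃ φ, φ ≫ (DerivedCategory.TStructure.t.truncLEι a).app A = u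

theorem TW.comp {a : ℤ} {L A B : Der k X} {u : L ⟶ A} (h : TW a u) (f : A ⟶ B) :
    TW a (u ≫ f) := by
  obtain ⟨φ, rfl⟩ := h
  refine ⟨φ ≫ (DerivedCategory.TStructure.t.truncLE a).map f, ?_⟩
  rw [Category.assoc, Category.assoc, (DerivedCategory.TStructure.t.truncLEι a).naturality f]
  rfl

theorem TW.iso {a : ℤ} {L A B : Der k X} {u : L ⟶ A} (f : A ⟶ B) [IsIso f] :
    TW a (u ≫ f) ↔ TW a u :=
  ⟨fun h => by simpa using h.comp (inv f), fun h => h.comp f⟩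

theorem tw_iff {a : ℤ} {S : ShortComplex (Cx k X)} (hS : S.ShortExact)
    (h1 : ∀ i, a < i → ∀ x, ExAt S.X₁ i x) (h3 : ∀ i, i < a + 1 → ∀ x, ExAt S.X₃ i x)
    {L : Der k X} (u : L ⟶ DerivedCategory.Q.obj S.X₂) :
    TW a u ↔ u ≫ DerivedCategory.Q.map S.g = 0 := by
  have k1 := (isLE_iff _ _).2 h1
  have k3 := (isGE_iff _ _).2 h3
  constructor
  · rintro ⟨φ, rfl⟩
    rw [Category.assoc, DerivedCategory.TStructure.t.zero_of_isLE_of_isGE
      ((DerivedCategory.TStructure.t.truncLEι a).app _ ≫ DerivedCategory.Q.map S.g) a (a + 1)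
      (by omega) inferInstance k3, comp_zero]
  · intro h
    obtain ⟨g, hg⟩ := Triangle.coyoneda_exact₂ _ (DerivedCategory.triangleOfSES_distinguished hS)
      u h
    refine ⟨g ≫ DerivedCategory.TStructure.t.liftTruncLE (DerivedCategory.Q.map S.f) a, ?_⟩
    exact (Category.assoc _ _ _).trans ((congrArg (g ≫ ·)
      (DerivedCategory.TStructure.t.liftTruncLE_ι (DerivedCategory.Q.map S.f) a)).trans hg.symm)

theorem d_app {F G : Cx k X} (f : F ⟶ G) (i j : ℤ) (U : Opens X) (c : sec (F.X i) U) :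
    app (G.d i j) U (app (f.f i) U c) = app (f.f j) U (app (F.d i j) U c) := by
  rw [← app_comp, ← app_comp, f.comm]

theorem cyc_app {F G : Cx k X} (f : F ⟶ G) {i j : ℤ} {U : Opens X} {c : sec (F.X i) U}
    (hc : app (F.d i j) U c = 0) : app (G.d i j) U (app (f.f i) U c) = 0 := by
  rw [d_app, hc, map_zero]

theorem clsC_f (m : ℤ) : ∃ e : (cstAt k X m).X m ⟶ cst k X, ∀ {F : Cx k X} (c : sec (F.X m) ⊤)
    (hc : app (F.d m (m + 1)) ⊤ c = 0), (clsC c hc).f m = e ≫ secHom c :=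
  ⟨_, fun _ _ => HomologicalComplex.mkHomFromSingle_f _ _⟩

theorem cls_map {F G : Cx k X} (f : F ⟶ G) {m : ℤ} (c : sec (F.X m) ⊤)
    (hc : app (F.d m (m + 1)) ⊤ c = 0) :
    cls c hc ≫ DerivedCategory.Q.map f = cls (app (f.f m) ⊤ c) (cyc_app f hc) := by
  rw [cls, cls, ← Functor.map_comp]
  refine congrArg _ (HomologicalComplex.from_single_hom_ext ?_)
  obtain ⟨e, he⟩ := clsC_f (k := k) (X := X) m
  refine (HomologicalComplex.comp_f _ _ _).trans ?_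
  rw [he, he]
  exact (Category.assoc _ _ _).trans (congrArg (e ≫ ·) (secHom_comp _ _))

theorem cls_sub {F : Cx k X} {m : ℤ} (c c' : sec (F.X m) ⊤) (hc : app (F.d m (m + 1)) ⊤ c = 0)
    (hc' : app (F.d m (m + 1)) ⊤ c' = 0) (h : app (F.d m (m + 1)) ⊤ (c - c') = 0) :
    cls (c - c') h = cls c hc - cls c' hc' := by
  rw [cls, cls, cls, ← Functor.map_sub]
  refine congrArg _ (HomologicalComplex.from_single_hom_ext ?_)
  obtain ⟨e, he⟩ := clsC_f (k := k) (X := X) m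
  refine Eq.trans ?_ (HomologicalComplex.sub_f_apply _ _ _).symm
  rw [he, he, he]
  exact (congrArg (e ≫ ·) (cst_hom_ext (by simp))).trans (Preadditive.comp_sub _ _ _)

variable (k X) in
/-- classes of cocycles of flabby complexes vanish exactly for the coboundaries -/
def CZ : Prop := ∀ F : Cx k X, FlqC F → ∀ (m : ℤ) (c : sec (F.X m) ⊤)
  (hc : app (F.d m (m + 1)) ⊤ c = 0), cls c hc = 0 ↔ ∃ t, app (F.d (m - 1) m) ⊤ t = c

theorem CZ.eq (h : CZ k X) {F : Cx k X} (hF : FlqC F) {m : ℤ} {c c' : sec (F.X m) ⊤}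
    (hc : app (F.d m (m + 1)) ⊤ c = 0) (hc' : app (F.d m (m + 1)) ⊤ c' = 0)
    (t : sec (F.X (m - 1)) ⊤) (e : app (F.d (m - 1) m) ⊤ t = c - c') : cls c hc = cls c' hc' := by
  rw [← sub_eq_zero, ← cls_sub c c' hc hc' (by rw [map_sub, hc, hc', sub_zero])]
  exact (h F hF m _ _).2 ⟨t, e⟩

variable {T T' : Type} [AddCommGroup T] [Module k T] [AddCommGroup T'] [Module k T']

/-- the cycles of degree `q` with small support around `x` are boundaries -/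
def PZ (C : CoC k X T) (q : ℤ) (x : X) : Prop := ∀ U, x ∈ U → ∃ V ≤ U, x ∈ V ∧
  ∀ u ∈ (C.P q).A V, C.D u = 0 → ∃ v ∈ (C.P (q - 1)).A U, C.D v = u

theorem PZ.exAt {C : CoC k X T} {N i : ℤ} {x : X} (h : PZ C (N - i) x) : ExAt (C.cx N) i x := by
  intro U hx s hs
  obtain ⟨V, hV, h1, h2⟩ := h U hx
  refine ⟨V, hV, h1, (CoC.ex_d (by omega)).2 fun u hu h0 => ?_⟩
  obtain ⟨v, hv, rfl⟩ := h2 u hu h0
  exact (CoC.d_eq_zero rfl).1 hs v (by rwa [← sub_sub])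

/-- a projector whose kernel is a subcomplex -/
structure Pj (C : CoC k X T) (π : Module.End k T) : Prop where
  mem : ∀ i U, ∀ u ∈ (C.P i).A U, π u ∈ (C.P i).A U
  idem : ∀ u, π (π u) = π u
  ker : ∀ u, π (C.D (π u)) = π (C.D u)

namespace Pj

variable {C : CoC k X T} {π : Module.End k T} (h : Pj C π)

/-- the quotient complex -/
def quo : CoC k X T where
  P i := (C.P i).fix π (h.mem i) h.idem
  D := π * C.D
  map e U u hu := ⟨h.mem _ U _ (C.map e U u hu.1), h.idem _⟩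
  sq i U u hu := by
    rw [Module.End.mul_apply, Module.End.mul_apply, h.ker, C.sq i U u hu.1, map_zero]

include h in
theorem mem' (i : ℤ) (U : Opens X) (u : T) (hu : u ∈ (C.P i).A U) : (1 - π) u ∈ (C.P i).A U :=
  sub_mem hu (h.mem i U u hu)

include h in
theorem idem' (u : T) : (1 - π) ((1 - π) u) = (1 - π) u := by
  simp only [LinearMap.sub_apply, Module.End.one_apply, map_sub, h.idem, sub_self, sub_zero]

theorem fix_iff {u : T} : u ∈ LinearMap.eqLocus (1 - π) LinearMap.id ↔ π u = 0 :=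
  sub_eq_self

/-- the subcomplex -/
def sub : CoC k X T where
  P i := (C.P i).fix (1 - π) (h.mem' i) h.idem'
  D := C.D
  map e U u hu := ⟨C.map e U u hu.1, fix_iff.2 (by
    rw [← h.ker, fix_iff.1 hu.2, map_zero, map_zero])⟩
  sq i U u hu := C.sq i U u hu.1

theorem mem_quo {i : ℤ} {U : Opens X} {u : T} :
    u ∈ (h.quo.P i).A U ↔ u ∈ (C.P i).A U ∧ π u = u := Iff.rfl

theorem mem_sub {i : ℤ} {U : Opens X} {u : T} :
    u ∈ (h.sub.P i).A U ↔ u ∈ (C.P i).A U ∧ π u = 0 := and_congr Iff.rfl fix_iff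

/-- the dual of the projection -/
def ι (N : ℤ) : h.quo.cx N ⟶ C.cx N :=
  CoC.hom h.quo C N N π (fun _ U u hu => ⟨h.mem _ U u hu, h.idem u⟩) fun _ _ u _ => (h.ker u).symm

/-- the dual of the inclusion -/
def ρ (N : ℤ) : C.cx N ⟶ h.sub.cx N :=
  CoC.hom C h.sub N N LinearMap.id (fun _ _ _ hu => hu.1) fun _ _ _ _ => rfl

theorem ι_ρ (N : ℤ) : h.ι N ≫ h.ρ N = 0 := HomologicalComplex.hom_ext _ _ fun i =>
  hom_ext fun _ s => CoS.sec_ext fun _ hu =>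
    (congrArg ((h.quo.P (N - i)).ev s) (Subtype.ext (h.mem_sub.1 hu).2)).trans (map_zero _)

theorem ses (N : ℤ) : (ShortComplex.mk _ _ (h.ι_ρ N)).ShortExact := by
  refine HomologicalComplex.shortExact_of_degreewise_shortExact _ fun i => ?_
  refine ShortComplex.ShortExact.mk' ((exact_iff _).2 fun U s hs x hx => ⟨U, le_rfl, hx, ?_⟩)
    ((mono_iff _).2 fun U => (injective_iff_map_eq_zero _).2 fun s hs => ?_)
    ((epi_iff _).2 fun U s x hx => ⟨U, le_rfl, hx, ?_⟩)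
  · refine ⟨(h.quo.P (N - i)).mk' ((C.P (N - i)).ev s ∘ₗ Submodule.inclusion inf_le_left), ?_⟩
    refine CoS.sec_ext (P := C.P (N - i)) fun u hu => ?_
    have h1 : (C.P (N - i)).ev s ⟨(1 - π) u, h.mem' _ U u hu⟩ = 0 :=
      LinearMap.congr_fun hs ⟨(1 - π) u, h.mem' _ U u hu, h.idem' u⟩
    have h2 : (⟨(1 - π) u, h.mem' _ U u hu⟩ : (C.P (N - i)).A U) =
      ⟨u, hu⟩ - ⟨π u, h.mem _ U u hu⟩ := rfl
    rw [h2, map_sub, sub_eq_zero] at h1
    exact h1.symm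
  · refine CoS.sec_ext (P := h.quo.P (N - i)) fun u hu => ?_
    refine Eq.trans ?_ (LinearMap.congr_fun hs ⟨u, hu.1⟩)
    exact congrArg ((h.quo.P (N - i)).ev s) (Subtype.ext (h.mem_quo.1 hu).2.symm)
  · refine ⟨(C.P (N - i)).mk' ((h.sub.P (N - i)).ev s ∘ₗ
      (1 - π).restrict fun u hu => ⟨h.mem' _ U u hu, h.idem' u⟩), ?_⟩
    refine CoS.sec_ext (P := h.sub.P (N - i)) fun u hu => ?_
    exact congrArg ((h.sub.P (N - i)).ev s) (Subtype.ext hu.2)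

/-- **the truncation is the annihilator of the subcomplex** -/
theorem tw (cz : CZ k X) (hb : ∃ b, ∀ i, b < i → (C.P i).A ⊤ = ⊥) {N a : ℤ}
    (h1 : ∀ q, q < N - a → ∀ x, PZ h.quo q x) (h2 : ∀ q, N - a ≤ q → ∀ x, PZ h.sub q x) {m : ℤ}
    (φ : sec ((C.cx N).X m) ⊤) (hφ : app ((C.cx N).d m (m + 1)) ⊤ φ = 0) :
    TW a (cls φ hφ) ↔ ∀ u (hu : u ∈ (C.P (N - m)).A ⊤), π u = 0 → C.D u = 0 →
      (C.P (N - m)).ev φ ⟨u, hu⟩ = 0 := by
  have hf : FlqC (h.sub.cx N) := h.sub.flqC N (hb.imp fun b hb i hi =>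
    le_bot_iff.1 (inf_le_left.trans (hb i hi).le))
  rw [tw_iff (h.ses N) (fun i hi x => (h1 _ (by omega) x).exAt)
    (fun i hi x => (h2 _ (by omega) x).exAt), cls_map, cz _ hf, CoC.ex_d (by omega)]
  exact ⟨fun e u hu k1 k2 => e u (h.mem_sub.2 ⟨hu, k1⟩) k2,
    fun e u hu k2 => e u hu.1 (h.mem_sub.1 hu).2 k2⟩

end Pj

/-- a chain map which shifts the degree by `s` -/
structure Mp (C' : CoC k X T') (C : CoC k X T) (s : ℤ) (f : T' →ₗ[k] T) : Prop where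
  mem : ∀ i j, i + s = j → ∀ U, ∀ u ∈ (C'.P i).A U, f u ∈ (C.P j).A U
  comm : ∀ i U, ∀ u ∈ (C'.P i).A U, f (C'.D u) = C.D (f u)

variable {C' : CoC k X T'} {C : CoC k X T} {s : ℤ} {f : T' →ₗ[k] T}

/-- the transpose -/
def Mp.hom (h : Mp C' C s f) (N' N : ℤ) (e : N' + s = N) : C.cx N ⟶ C'.cx N' :=
  CoC.hom C C' N N' f (fun _ => h.mem _ _ (by omega)) h.comm

theorem Mp.ev (h : Mp C' C s f) {N' N : ℤ} (e : N' + s = N) {i : ℤ} {U : Opens X}
    (φ : sec ((C.cx N).X i) U) (u : T') (hu : u ∈ (C'.P (N' - i)).A U) :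
    (C'.P (N' - i)).ev (app ((h.hom N' N e).f i) U φ) ⟨u, hu⟩ =
      (C.P (N - i)).ev φ ⟨f u, h.mem _ _ (by omega) U u hu⟩ := rfl

/-- `f` is a quasi-isomorphism over `U` -/
structure QI (C' : CoC k X T') (C : CoC k X T) (f : T' →ₗ[k] T) (U : Opens X) : Prop where
  inj : ∀ q, ∀ a ∈ (C'.P q).A U, C'.D a = 0 → ∀ y ∈ (C.P (q - 1)).A U, f a = C.D y →
    ∃ x ∈ (C'.P (q - 1)).A U, C'.D x = a
  surj : ∀ q, ∀ b ∈ (C.P q).A U, C.D b = 0 →
    ∃ a ∈ (C'.P q).A U, C'.D a = 0 ∧ ∃ y ∈ (C.P (q - 1)).A U, b = f a + C.D y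

theorem QI.dual_surj (h : Mp C' C 0 f) {U : Opens X} (hq : QI C' C f U) {N i : ℤ}
    (s' : sec ((C'.cx N).X i) U) (hs : app ((C'.cx N).d i (i + 1)) U s' = 0) :
    ∃ s : sec ((C.cx N).X i) U, app ((C.cx N).d i (i + 1)) U s = 0 ∧
      ∃ t, app ((C'.cx N).d (i - 1) i) U t = s' - app ((h.hom N N (add_zero N)).f i) U s := by
  let Z : Submodule k ((C'.P (N - i)).A U) := LinearMap.ker (C'.D ∘ₗ Submodule.subtype _)
  let p : (Z × (C.P (N - (i + 1))).A U) →ₗ[k] (C.P (N - i)).A U :=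
    LinearMap.coprod (f.restrict (h.mem _ _ (add_zero _) U) ∘ₗ Z.subtype)
      (C.D.restrict (C.map (by omega) U))
  obtain ⟨L, hL⟩ := ex_fac p ((C'.P (N - i)).ev s' ∘ₗ Z.subtype ∘ₗ LinearMap.fst k _ _) (by
    rintro ⟨⟨⟨a, ha⟩, h0⟩, y, hy⟩ e
    have e1 : f a + C.D y = 0 := congrArg Subtype.val e
    obtain ⟨x, hx, rfl⟩ := hq.inj _ a ha h0 (-y) (neg_mem (by rwa [sub_sub]))
      (by rw [map_neg]; exact eq_neg_of_add_eq_zero_left e1)
    exact (CoC.d_eq_zero rfl).1 hs x (by rwa [← sub_sub]))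
  refine ⟨(C.P _).mk' L, (CoC.d_eq_zero rfl).2 fun u hu => ?_,
    (CoC.ex_d (by omega)).2 fun u hu h0 => ?_⟩
  · have h1 := hL (0, ⟨u, hu⟩)
    rw [LinearMap.coprod_apply, map_zero, zero_add] at h1
    exact h1.trans (map_zero ((C'.P (N - i)).ev s'))
  · have h1 := hL (⟨⟨u, hu⟩, h0⟩, 0)
    rw [LinearMap.coprod_apply, map_zero, add_zero] at h1
    exact sub_eq_zero.2 h1.symm

theorem QI.dual_inj (h : Mp C' C 0 f) {U : Opens X} (hq : QI C' C f U) {N i : ℤ}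
    (s : sec ((C.cx N).X i) U) (hs : app ((C.cx N).d i (i + 1)) U s = 0)
    (t : sec ((C'.cx N).X (i - 1)) U)
    (ht : app ((C'.cx N).d (i - 1) i) U t = app ((h.hom N N (add_zero N)).f i) U s) :
    ∃ u, app ((C.cx N).d (i - 1) i) U u = s := by
  refine (CoC.ex_d (by omega)).2 fun b hb h0 => ?_
  obtain ⟨a, ha, h1, y, hy, rfl⟩ := hq.surj _ b hb h0
  have hy' : y ∈ (C.P (N - (i + 1))).A U := by rwa [← sub_sub]
  have h2 : (⟨f a + C.D y, hb⟩ : (C.P (N - i)).A U) =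
    ⟨f a, h.mem _ _ (add_zero _) U a ha⟩ + ⟨C.D y, C.map (by omega) U y hy'⟩ := rfl
  rw [h2, map_add, (CoC.d_eq_zero rfl).1 hs y hy', add_zero, ← h.ev (add_zero N) s a ha, ← ht]
  exact (CoC.ex_d (by omega)).1 ⟨t, rfl⟩ a ha h1

theorem Mp.qis (h : Mp C' C 0 f) (hq : ∀ U, QI C' C f U) (N : ℤ) :
    QuasiIso (h.hom N N (add_zero N)) :=
  (P275S.quasiIso_iff _).2 fun x i => ⟨fun U hx s hs => by
    obtain ⟨u, h1, t, h2⟩ := (hq U).dual_surj h s hs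
    exact ⟨U, le_rfl, hx, u, h1, t, by rw [h2, res_self, add_sub_cancel]⟩,
    fun U hx s hs t ht => by
      obtain ⟨u, h1⟩ := (hq U).dual_inj h s hs t ht
      exact ⟨U, le_rfl, hx, u, by rw [h1, res_self]⟩⟩

/-- the cycle `z` is mapped to the class of a cycle in the kernel of `π` -/
def InK (C : CoC k X T) (f : T' →ₗ[k] T) (π : Module.End k T) (q : ℤ) (z : T') : Prop :=
  ∃ y ∈ (C.P (q - 1)).A ⊤, π (f z + C.D y) = 0

/-- **the truncation in terms of a filtered model** -/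
theorem tw_model (cz : CZ k X) (h : Mp C' C 0 f) (hq : ∀ U, QI C' C f U) {π : Module.End k T}
    (hπ : Pj C π) (hb : ∃ b, ∀ i, b < i → (C.P i).A ⊤ = ⊥)
    (hb' : ∃ b, ∀ i, b < i → (C'.P i).A ⊤ = ⊥) {N a : ℤ}
    (h1 : ∀ q, q < N - a → ∀ x, PZ hπ.quo q x) (h2 : ∀ q, N - a ≤ q → ∀ x, PZ hπ.sub q x) {m : ℤ}
    (φ : sec ((C'.cx N).X m) ⊤) (hφ : app ((C'.cx N).d m (m + 1)) ⊤ φ = 0) :
    TW a (cls φ hφ) ↔ ∀ z (hz : z ∈ (C'.P (N - m)).A ⊤), C'.D z = 0 → InK C f π (N - m) z →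
      (C'.P (N - m)).ev φ ⟨z, hz⟩ = 0 := by
  obtain ⟨ψ, hψ, t, ht⟩ := (hq ⊤).dual_surj h φ hφ
  have := h.qis hq N
  have key : ∀ z (hz : z ∈ (C'.P (N - m)).A ⊤), C'.D z = 0 → ∀ y ∈ (C.P (N - m - 1)).A ⊤,
      ∀ hu, (C'.P (N - m)).ev φ ⟨z, hz⟩ = (C.P (N - m)).ev ψ ⟨f z + C.D y, hu⟩ := by
    intro z hz h0 y hy hu
    have hy' : y ∈ (C.P (N - (m + 1))).A ⊤ := by rwa [← sub_sub]
    have e2 : (⟨f z + C.D y, hu⟩ : (C.P (N - m)).A ⊤) =
      ⟨f z, h.mem _ _ (add_zero _) ⊤ z hz⟩ + ⟨C.D y, C.map (by omega) ⊤ y hy'⟩ := rfl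
    have e3 := (CoC.ex_d (by omega)).1 ⟨t, ht⟩ z hz h0
    rw [e2, map_add, (CoC.d_eq_zero rfl).1 hψ y hy', add_zero, ← h.ev (add_zero N) ψ z hz]
    exact sub_eq_zero.1 e3
  rw [cz.eq (C'.flqC N hb') hφ (cyc_app _ hψ) t ht, ← cls_map _ ψ hψ, TW.iso,
    hπ.tw cz hb h1 h2]
  constructor
  · rintro e z hz h0 ⟨y, hy, h3⟩
    have hu : f z + C.D y ∈ (C.P (N - m)).A ⊤ :=
      add_mem (h.mem _ _ (add_zero _) ⊤ z hz) (C.map (by omega) ⊤ y hy)
    rw [key z hz h0 y hy hu]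
    exact e _ hu h3 (by rw [map_add, ← h.comm _ ⊤ z hz, h0, map_zero, C.sq _ ⊤ y hy, add_zero])
  · intro e u hu h3 h0
    obtain ⟨z, hz, h4, y, hy, rfl⟩ := (hq ⊤).surj _ u hu h0
    rw [← key z hz h4 y hy hu]
    exact e z hz h4 ⟨y, hy, h3⟩

end Vale.Agent.P275WL
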