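import Vale.Agent.P275WL.Abs
import Vale.Agent.P275MC.Cur
import Vale.Agent.P275AR.Arr

/-!
# P275, the literal weight filtration: the cosheaf complex of a diagram
-/

open scoped Manifold ContDiff Topology Matrix
open Filter Set Function TopologicalSpace
open Vale.Agent.P272.K Vale.Agent.P281Z.Hg Vale.Agent.P275MC Vale.Agent.P275AR
open Vale.Agent.P281Z (HolM Mf off)
open Vale.Agent.P277Z.Slc (Snc St)
open Vale.Agent.P280Z.Pu (smo_of)

set_option linter.unusedSectionVars false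

noncomputable section

namespace Vale.Agent.P275WL

variable {X : Dia} {N : ℕ} {Y : Mf N}

/-- the elements of total degree `q` -/
def TD (X : Dia) (q : ℤ) : Submodule ℂ X.T :=
  Submodule.pi univ fun s => Dg (X.n s) (X.S s).X (q - X.col s)

theorem mem_TD {q : ℤ} {u : X.T} : u ∈ TD X q ↔ ∀ s, u s ∈ Dg (X.n s) (X.S s).X (q - X.col s) :=
  ⟨fun h s => h s trivial, fun h s _ => h s⟩

/-- the projection on the total degree `q` -/
def tz (X : Dia) (q : ℤ) : Module.End ℂ X.T :=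
  X.gl fun s j => if ((j + X.col s : ℕ) : ℤ) = q then 1 else 0

theorem tz_apply (q : ℤ) (u : X.T) (s : X.σ) : tz X q u s = pj _ _ (q - X.col s) (u s) :=
  gl_congr (c' := fun j => if (j : ℤ) = q - X.col s then 1 else 0)
    (fun j _ => if_congr (by push_cast; omega) rfl rfl) (u s)

theorem tz_mem (q : ℤ) (u : X.T) : tz X q u ∈ TD X q := mem_TD.2 fun s => by
  rw [tz_apply]
  exact pj_mem _ _

theorem tz_eq {q : ℤ} {u : X.T} (h : u ∈ TD X q) : tz X q u = u := funext fun s => by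
  rw [tz_apply, pj_eq (mem_TD.1 h s)]

theorem tz_D (h : X.OK) (q : ℤ) (u : X.T) : tz X q (X.D u) = X.D (tz X (q - 1) u) := by
  refine (h.gl_D (fun j => if (j : ℤ) = q then 1 else 0) u).trans (congrArg _ ?_)
  exact Fam.gl_congr u fun s j _ => if_congr (by push_cast; omega) rfl rfl

theorem D_TD (h : X.OK) {q : ℤ} {u : X.T} (hu : u ∈ TD X q) : X.D u ∈ TD X (q + 1) := by
  have h1 := tz_mem (q + 1) (X.D u)
  rwa [tz_D h, add_sub_cancel_right, tz_eq hu] at h1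

/-- the projection on the columns `< a` -/
def cp (X : Dia) (a : ℤ) : Module.End ℂ X.T := X.gl fun s _ => if (X.col s : ℤ) < a then 1 else 0

theorem cp_apply (a : ℤ) (u : X.T) (s : X.σ) :
    cp X a u s = if (X.col s : ℤ) < a then u s else 0 := by
  rw [cp, Fam.gl_apply, gl_const]
  split_ifs <;> simp

theorem cp_eq_zero {a : ℤ} {u : X.T} : cp X a u = 0 ↔ ∀ s, (X.col s : ℤ) < a → u s = 0 :=
  ⟨fun h s hs => by rw [← if_pos (t := u s) (e := 0) hs, ← cp_apply, h]; rfl,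
    fun h => funext fun s => by
      rw [cp_apply]
      split_ifs with k
      · exact h s k
      · rfl⟩

theorem cp_eq {a : ℤ} {u : X.T} (h : ∀ s, ¬(X.col s : ℤ) < a → u s = 0) : cp X a u = u :=
  funext fun s => by
    rw [cp_apply]
    split_ifs with k
    · rfl
    · exact (h s k).symm

theorem cp_cp (a : ℤ) (u : X.T) : cp X a (cp X a u) = cp X a u :=
  cp_eq fun s hs => by rw [cp_apply, if_neg hs]

theorem cp_tz (a q : ℤ) (u : X.T) : cp X a (tz X q u) = tz X q (cp X a u) := Fam.gl_comm _ _ _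

theorem δ_col (h : X.OK) {u : X.T} {t : X.σ} (hu : ∀ s, X.col s + 1 = X.col t → u s = 0) :
    X.δ u t = 0 :=
  Sys.act_On (Q := {s | X.col s + 1 ≠ X.col t}) (Q' := {t}ᶜ)
    (fun t' s k hs e => hs ((h.col t' s k).symm.trans (congrArg X.col e)))
    (Fam.gl_On _ fun s hs => hu s (not_not.1 hs)) t (not_not.2 rfl)

theorem cp_D_zero (h : X.OK) {a : ℤ} {u : X.T} (hu : cp X a u = 0) : cp X a (X.D u) = 0 :=
  cp_eq_zero.2 fun s hs => by
    rw [Dia.D_apply, Pi.add_apply, Fam.d_apply, cp_eq_zero.1 hu s hs, map_zero, zero_add]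
    exact δ_col h fun s' e => cp_eq_zero.1 hu s' (by omega)

theorem cp_D (h : X.OK) (a : ℤ) (u : X.T) : cp X a (X.D (cp X a u)) = cp X a (X.D u) := by
  have h1 := cp_D_zero h (a := a) (u := u - cp X a u) (by rw [map_sub, cp_cp, sub_self])
  rw [map_sub, map_sub, sub_eq_zero] at h1
  exact h1.symm

/-- the cosheaf of the elements of total degree `q` -/
def kS (B : X.Ov Y) (q : ℤ) : CoS ℂ (TopCat.of Y.X) X.T :=
  CoS.pi fun s => (amS (X.n s) (X.S s).X (q - X.col s)).push (tm (smo_of (B.hol s)))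

variable {B : X.Ov Y}

theorem mem_kS' {q : ℤ} {V : Opens (TopCat.of Y.X)} {u : X.T} : u ∈ (kS B q).A V ↔
    ∀ s, u s ∈ Am (X.n s) (q - X.col s) (B.p s ⁻¹' (V : Set Y.X)) :=
  ⟨fun h s => h s trivial, fun h s _ => h s⟩

theorem mem_kS {q : ℤ} {V : Opens (TopCat.of Y.X)} {u : X.T} :
    u ∈ (kS B q).A V ↔ u ∈ B.Kc (V : Set Y.X) ∧ u ∈ TD X q := by
  rw [mem_kS', Dia.Ov.mem_Kc, mem_TD, ← forall_and]
  rfl

/-- the cosheaf complex -/
def kC (B : X.Ov Y) (h : X.OK) : CoC ℂ (TopCat.of Y.X) X.T where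
  P := kS B
  D := X.D
  map e _ _ hu := mem_kS.2 ⟨Dia.Ov.D_Kc h (mem_kS.1 hu).1, e ▸ D_TD h (mem_kS.1 hu).2⟩
  sq _ _ u _ := h.D_D u

theorem kC_bd (B : X.Ov Y) (h : X.OK) : ∃ b, ∀ i, b < i → ((kC B h).P i).A ⊤ = ⊥ := by
  obtain ⟨b, hb⟩ := X.top
  refine ⟨b, fun i hi => eq_bot_iff.2 fun u hu => funext fun s => ?_⟩
  exact (Dg_big (by have := hb s; push_cast; omega)).le (mem_kS'.1 hu s).2

theorem pj_cp (B : X.Ov Y) (h : X.OK) (a : ℤ) : Pj (kC B h) (cp X a) where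
  mem _ _ u hu := mem_kS'.2 fun s => by
    rw [cp_apply]
    split_ifs
    · exact mem_kS'.1 hu s
    · exact zero_mem _
  idem := cp_cp a
  ker := cp_D h a

/-- the pieces are submanifolds of codimension equal to the column -/
structure Std (B : X.Ov Y) : Prop where
  dim : ∀ s, (X.S s).X → X.n s + X.col s = N
  inj : ∀ s, Injective (B.p s)

theorem Std.step (hs : Std B) {x : Y.X} {U : Opens (TopCat.of Y.X)} (hx : x ∈ U) :
    ∃ V ≤ U, x ∈ V ∧ ∀ s (q : ℤ), q + X.col s ≠ (N + N : ℕ) →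
      ∀ w ∈ Am (X.n s) (q - X.col s) (B.p s ⁻¹' (V : Set Y.X)), dd _ _ w = 0 →
        ∃ v ∈ Am (X.n s) (q - 1 - X.col s) (B.p s ⁻¹' (U : Set Y.X)), dd _ _ v = w := by
  have key : ∀ s, ∃ V : Set Y.X, IsOpen V ∧ x ∈ V ∧ ∀ q : ℤ, q + X.col s ≠ (N + N : ℕ) →
      ∀ w ∈ Am (X.n s) (q - X.col s) (B.p s ⁻¹' V), dd _ _ w = 0 →
        ∃ v ∈ Am (X.n s) (q - 1 - X.col s) (B.p s ⁻¹' (U : Set Y.X)), dd _ _ v = w := fun s => by
    have hc : Continuous (B.p s) := (smo_of (B.hol s)).cont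
    by_cases h : x ∈ range (B.p s)
    · obtain ⟨z, rfl⟩ := h
      obtain ⟨W, h1, h2, h3, -⟩ := ex_good (d := X.n s) (x := z)
        (U := ⟨B.p s ⁻¹' (U : Set Y.X), U.2.preimage hc⟩) hx
      obtain ⟨V, h4, h5⟩ := (hc.isClosedEmbedding (hs.inj s)).isInducing.isOpen_iff.1 W.2
      refine ⟨V, h4, h5.symm.subset h2, fun q hq w hw h0 => ?_⟩
      obtain ⟨v, hv, e⟩ := h3 (q - X.col s) (by have := hs.dim s z; push_cast at hq ⊢; omega) w
        (Am_mono _ h5.subset hw) h0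
      exact ⟨v, by rw [sub_right_comm]; exact Am_mono _ h1 hv, e⟩
    · refine ⟨(range (B.p s))ᶜ, (isCompact_range hc).isClosed.isOpen_compl, h,
        fun q _ w hw _ => ⟨0, zero_mem _, ?_⟩⟩
      rw [preimage_compl, preimage_range, compl_univ] at hw
      rw [map_zero, (Submodule.mem_bot ℂ).1 (Ac_empty.le hw.1)]
  choose V h1 h2 h3 using key
  exact ⟨⟨(U : Set Y.X) ∩ ⋂ s, V s, U.2.inter (isOpen_iInter_of_finite h1)⟩, fun _ h => h.1,
    ⟨hx, mem_iInter.2 h2⟩, fun s q hq w hw => h3 s q hq w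
      (Am_mono _ (preimage_mono fun _ h => mem_iInter.1 h.2 s) hw)⟩

theorem Std.loc (hs : Std B) (h : X.OK) {x : Y.X} (j : ℕ) : ∀ U : Opens (TopCat.of Y.X), x ∈ U →
    ∃ V ≤ U, x ∈ V ∧ ∀ (q a : ℤ), ∀ u ∈ (kS B q).A V, cp X a u = 0 →
      cp X (a + j) (X.D u) = 0 →
      (∀ s, a ≤ X.col s → (X.col s : ℤ) < a + j → q + X.col s ≠ (N + N : ℕ)) →
      ∃ v ∈ (kS B (q - 1)).A U, cp X a v = 0 ∧ cp X (a + j) v = v ∧
        cp X (a + j) (u - X.D v) = 0 := by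
  induction j with
  | zero =>
    refine fun U hx => ⟨U, le_rfl, hx, fun q a u _ h1 _ _ => ⟨0, zero_mem _, map_zero _,
      map_zero _, ?_⟩⟩
    rwa [map_zero, sub_zero, Nat.cast_zero, add_zero]
  | succ j ih =>
    intro U hx
    obtain ⟨W, hW, hxW, k1⟩ := ih U hx
    obtain ⟨V, hV, hxV, k2⟩ := hs.step hxW
    refine ⟨V, hV.trans hW, hxV, fun q a u hu h1 h2 h3 => ?_⟩
    have key : ∀ s, ∃ v ∈ Am (X.n s) (q - 1 - X.col s) (B.p s ⁻¹' (W : Set Y.X)),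
        ((X.col s : ℤ) ≠ a → v = 0) ∧ ((X.col s : ℤ) = a → dd _ _ v = u s) := fun s => by
      by_cases e : (X.col s : ℤ) = a
      · have h4 := cp_eq_zero.1 h2 s (by push_cast; omega)
        rw [Dia.D_apply, Pi.add_apply, δ_col h fun s' e' => cp_eq_zero.1 h1 s' (by omega),
          add_zero] at h4
        obtain ⟨v, hv, h5⟩ := k2 s q (h3 s e.ge (by push_cast; omega)) _ (mem_kS'.1 hu s) h4
        exact ⟨v, hv, fun k => absurd e k, fun _ => h5⟩
      · exact ⟨0, zero_mem _, fun _ => rfl, fun k => absurd k e⟩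
    choose v hv v0 v1 using key
    have hv' : v ∈ (kS B (q - 1)).A W := mem_kS'.2 hv
    have e1 : a + ((j + 1 : ℕ) : ℤ) = a + 1 + j := by push_cast; ring
    rw [e1] at h2 h3 ⊢
    obtain ⟨w, hw, w0, w1, w2⟩ := k1 q (a + 1) (u - X.D v)
      (sub_mem ((kS B q).mono hV hu) ((kC B h).map (sub_add_cancel q 1) W v hv'))
      (cp_eq_zero.2 fun s hs => by
        rw [Pi.sub_apply, Dia.D_apply, Pi.add_apply, δ_col h fun s' e' => v0 s' (by omega),
          add_zero, Fam.d_apply]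
        by_cases e : (X.col s : ℤ) = a
        · rw [v1 s e, sub_self]
        · rw [v0 s e, map_zero, sub_zero]
          exact cp_eq_zero.1 h1 s (by omega))
      (by rw [map_sub, h.D_D, sub_zero, h2]) fun s a1 a2 => h3 s (by omega) a2
    refine ⟨v + w, add_mem ((kS B (q - 1)).mono hW hv') hw, cp_eq_zero.2 fun s hs => ?_, ?_, ?_⟩
    · rw [Pi.add_apply, v0 s (by omega), cp_eq_zero.1 w0 s (by omega), add_zero]
    · rw [map_add, w1, cp_eq fun s hs => v0 s (by omega)]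
    · rw [map_add, ← sub_sub, w2]

theorem Std.pz_quo (hs : Std B) (h : X.OK) {a q : ℤ} (hq : q + a ≤ (N + N : ℕ)) (x : Y.X) :
    PZ (pj_cp B h a).quo q x := fun U hx => by
  obtain ⟨V, hV, hxV, k⟩ := hs.loc h a.toNat U hx
  refine ⟨V, hV, hxV, fun u hu h0 => ?_⟩
  by_cases ha : a < 0
  · refine ⟨0, zero_mem _, (map_zero _).trans ?_⟩
    exact (cp_eq_zero.2 fun s hs => absurd hs (by omega)).symm.trans
      ((pj_cp B h a).mem_quo.1 hu).2
  have e : (0 : ℤ) + a.toNat = a := by omega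
  have k1 := k q 0 u hu.1 (cp_eq_zero.2 fun s hs => absurd hs (by omega))
  rw [e] at k1
  obtain ⟨v, hv, -, h1, h2⟩ := k1 h0 fun s _ hs => by omega
  refine ⟨v, ⟨hv, h1⟩, ?_⟩
  rw [map_sub, sub_eq_zero, ((pj_cp B h a).mem_quo.1 hu).2] at h2
  exact h2.symm

theorem Std.pz_sub (hs : Std B) (h : X.OK) {a q : ℤ} (hq : ((N + N : ℕ) : ℤ) < q + a) (x : Y.X) :
    PZ (pj_cp B h a).sub q x := fun U hx => by
  obtain ⟨b, hb⟩ := X.top
  obtain ⟨V, hV, hxV, k⟩ := hs.loc h (b + (-a).toNat) U hx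
  refine ⟨V, hV, hxV, fun u hu h0 => ?_⟩
  obtain ⟨v, hv, h1, -, h2⟩ := k q a u hu.1 ((pj_cp B h a).mem_sub.1 hu).2
    ((congrArg _ h0).trans (map_zero _)) fun s hs _ => by omega
  refine ⟨v, (pj_cp B h a).mem_sub.2 ⟨hv, h1⟩, (sub_eq_zero.1 (funext fun s => ?_)).symm⟩
  by_cases ha : a ≤ X.col s
  · exact cp_eq_zero.1 h2 s (by have := hb s; push_cast; omega)
  · exact cp_eq_zero.1 h2 s (by push_cast; omega)

variable {M : Type} [TopologicalSpace M] [ChartedSpace (Cm N) M] [T2Space M]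
  [IsManifold 𝓘(ℂ, Cm N) ω M] {j : M → Y.X} {s₀ : X.σ} {Z : Set Y.X}

theorem img_pre (hr : range j = Zᶜ) (V : Set Y.X) : j '' (j ⁻¹' V) = V \ Z := by
  rw [image_preimage_eq_inter_range, hr]
  rfl

theorem tz_e0 (h0 : X.col s₀ = 0) (q : ℤ) (a : SF N Y.X) :
    tz X q (B.e0 s₀ a) = B.e0 s₀ (pj _ _ q a) := funext fun s => by
  rw [tz_apply]
  by_cases e : s = s₀
  · subst e
    rw [Dia.Ov.e0_self, Dia.Ov.e0_self, h0, Nat.cast_zero, sub_zero, pb_pj]
  · rw [Dia.Ov.e0_ne _ e, Dia.Ov.e0_ne _ e, map_zero]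

theorem mp_ext (h : X.OK) (t : B.Top s₀ Z) (h0 : X.col s₀ = 0) (oe : OE N j) (hr : range j = Zᶜ) :
    Mp ((amC N M).push (tm oe.smo)) (kC B h) 0 (B.e0 s₀ ∘ₗ oe.ext) where
  mem i _ e U u hu := by
    have h1 := oe.ext_Am (W := j ⁻¹' (U : Set Y.X)) hu
    refine mem_kS.2 ⟨Dia.Ov.aug_Kc _ (Ac_mono (image_preimage_subset _ _) h1.1), ?_⟩
    have h2 := tz_mem i (B.e0 s₀ (oe.ext u))
    rw [tz_e0 h0, pj_eq h1.2] at h2
    rwa [← e, add_zero]
  comm _ U u hu := by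
    have h1 := oe.ext_Ac (W := j ⁻¹' (U : Set Y.X)) hu.1
    rw [img_pre hr] at h1
    exact (congrArg (B.e0 s₀) (oe.ext_dd hu.1)).trans (t.D_e0 h h1).symm

theorem qi_ext (h : X.OK) (t : B.Top s₀ Z) (h0 : X.col s₀ = 0) (oe : OE N j) (hr : range j = Zᶜ)
    (U : Opens (TopCat.of Y.X)) :
    QI ((amC N M).push (tm oe.smo)) (kC B h) (B.e0 s₀ ∘ₗ oe.ext) U := by
  have hs : (U : Set Y.X) \ Z ⊆ range j := fun _ hx => hr.symm.subset hx.2
  have hp : ∀ b ∈ Ac N ((U : Set Y.X) \ Z), pb oe.smo b ∈ Ac N (j ⁻¹' (U : Set Y.X)) :=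
    fun b hb => Ac_mono (preimage_mono sdiff_subset) (oe.pb_Ac hs hb)
  refine ⟨fun q a ha _ y hy e => ?_, fun q u hu h1 => ?_⟩
  · have h1 := oe.ext_Ac (W := j ⁻¹' (U : Set Y.X)) ha.1
    rw [img_pre hr] at h1
    obtain ⟨b, hb, e1⟩ := t.inj h U.2 h1 (mem_kS.1 hy).1 e
    refine ⟨pj _ _ (q - 1) (pb oe.smo b), pj_Am _ (hp b hb), ?_⟩
    change dd N M _ = a
    rw [← pj_dd, sub_add_cancel, ← pb_dd, ← e1, oe.pb_ext ha.1, pj_eq ha.2]
  · obtain ⟨a, ha, y, hy, e1, e2⟩ := t.surj h U.2 (mem_kS.1 hu).1 h1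
    have h2 : oe.ext (pb oe.smo a) = a := by
      obtain ⟨K, -, k2, k3⟩ := ha
      exact oe.ext_pb (Sp_mono (k2.trans hs) k3)
    refine ⟨pj _ _ q (pb oe.smo a), pj_Am _ (hp a ha), ?_, -tz X (q - 1) y,
      neg_mem (mem_kS.2 ⟨Dia.Ov.gl_Kc _ hy, tz_mem _ _⟩), ?_⟩
    · change dd N M _ = 0
      rw [← pj_dd, ← pb_dd, e1, map_zero, map_zero]
    · change u = B.e0 s₀ (oe.ext _) + X.D _
      rw [oe.ext_pj (hp a ha), h2, ← tz_e0 h0, map_neg, ← tz_D h, ← e2, map_sub,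
        tz_eq (mem_kS.1 hu).2]
      abel

variable {r : ℕ} {G : Fin r → Set Y.X}

theorem std_arr (h : Snc N G) : Std (ovr h) where
  dim I z := by
    have hx := (inc_emb h I).rng.subset (mem_range_self z)
    obtain ⟨ζ, -, h2⟩ := h (inc h I z)
    have h3 := h2.comp (fun a : Fin I.card =>
      (⟨I.equivFin.symm a, hx _ (I.equivFin.symm a).2⟩ : {l // inc h I z ∈ G l}))
      fun a b e => I.equivFin.symm.injective (Subtype.ext (Subtype.mk.inj e))
    have h4 := P281Z.ind_le h3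
    rw [Fintype.card_fin] at h4
    exact Nat.sub_add_cancel h4
  inj I := (inc_emb h I).inj

end Vale.Agent.P275WL
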